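import Vale.Agent.P196.Full.Lift.Pres.Enough

/-!
# P196: central words act trivially, and generators determine their colours
-/

namespace Vale.Agent.P196.Full.Lift

open Calculus Tiles

variable {n : ℕ}

/-- Only the identity commutes with colours, unit translations and the tiles at the origin. -/
theorem eq_one_of_commute [Nonempty Pts] (hn : 8 ≤ n) (φ : Equiv.Perm (Pt Pts n))
    (h : ∀ g ∈ reach n, Commute φ g) : φ = 1 := by
  have hfam : ∀ π : Alt n, Commute φ (fam n fun _ : Pts => π) := fun π =>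
    h _ (by simpa [Function.comp_def] using fam_mem_reach (fun _ : Base => π))
  have happ : ∀ g, Commute φ g → ∀ z, φ (g z) = g (φ z) := fun g hg z =>
    congrArg (fun p : Equiv.Perm (Pt Pts n) => p z) hg.eq
  have hcol : ∀ (x : Pts) (c : Fin n), (φ (x, c)).2 = c := by
    intro x c
    by_contra hne
    obtain ⟨d, hd⟩ := exists_fresh [c, (φ (x, c)).2] (by simp; omega)
    obtain ⟨e, he⟩ := exists_fresh [c, (φ (x, c)).2, d] (by simp; omega)
    simp only [List.mem_cons, List.not_mem_nil, or_false, not_or] at hd he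
    have t : Dist (φ (x, c)).2 d e := ⟨Ne.symm hd.2, Ne.symm he.2.2, Ne.symm he.2.1⟩
    have := happ _ (hfam (cyc _ d e t)) (x, c)
    rw [fam_apply, fam_apply, cyc_apply_of_ne _ _ _ t (Ne.symm hne) (Ne.symm hd.1) (Ne.symm he.1),
      cyc_apply_fst] at this
    exact hd.2 (congrArg Prod.snd this).symm
  have hpt : ∀ (x : Pts) (c c' : Fin n), (φ (x, c)).1 = (φ (x, c')).1 := by
    intro x c c'
    by_cases hcc : c = c'
    · rw [hcc]
    obtain ⟨d, hd⟩ := exists_fresh [c, c'] (by simp; omega)
    simp only [List.mem_cons, List.not_mem_nil, or_false, not_or] at hd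
    have t : Dist c c' d := ⟨hcc, Ne.symm hd.2, Ne.symm hd.1⟩
    have := congrArg Prod.fst (happ _ (hfam (cyc c c' d t)) (x, c))
    simp only [fam_apply, cyc_apply_fst] at this
    exact this.symm
  obtain ⟨c₁, hc₁⟩ := exists_fresh [col0 hn] (by simp; omega)
  simp only [List.mem_cons, List.not_mem_nil, or_false] at hc₁
  let V : AddSubgroup Lat :=
    { carrier := {v | ∀ x, (φ (sys.sh v x, c₁)).1 = sys.sh v (φ (x, c₁)).1}
      zero_mem' := fun x => by simp [sys.sh_zero]
      add_mem' := fun {v w} hv hw x => by rw [sys.sh_add, sys.sh_add, hv, hw]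
      neg_mem' := fun {v} hv x => by
        have := hv (sys.sh (-v) x)
        rw [sys.sh_sh, add_neg_cancel, sys.sh_zero] at this
        rw [this, sys.sh_neg_cancel] }
  have hunit : ∀ ax : Bool, axisVec ax 1 0 ∈ V := by
    intro ax x
    have hm : mv sys (pairVec c₁ (col0 hn) (axisVec ax 1 0)) ∈ reach n := ⟨_, evG_wL hn c₁ ax⟩
    have := congrArg Prod.fst (happ _ (h _ hm) (x, c₁))
    simp only [mv_apply, hcol] at this
    simpa [pairVec, hc₁] using this
  have hall : ∀ v, v ∈ V := fun v => by
    have e : v = v.1 • axisVec false 1 0 + v.2 • axisVec true 1 0 := by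
      ext <;> simp [axisVec]
    rw [e]
    exact V.add_mem (V.zsmul_mem (hunit false) _) (V.zsmul_mem (hunit true) _)
  obtain ⟨c₂, hc₂⟩ := exists_fresh [c₁] (by simp; omega)
  obtain ⟨c₃, hc₃⟩ := exists_fresh [c₁, c₂] (by simp; omega)
  simp only [List.mem_cons, List.not_mem_nil, or_false, not_or] at hc₂ hc₃
  have t : Dist c₁ c₂ c₃ := ⟨Ne.symm hc₂, Ne.symm hc₃.2, Ne.symm hc₃.1⟩
  have horigin : ∀ x : Pts, (φ (x, c₁)).1.1 0 = x.1 0 := by
    intro x
    have hp := happ _ (h _ (place_mem_reach ({x.1 0} : Set Base) c₁ c₂ c₃ t)) (x, c₁)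
    rw [place_apply, if_pos (show x ∈ (cyl ({x.1 0} : Set Base) : Set Pts) from rfl), cyc_apply_fst,
      place_apply] at hp
    by_contra hne
    rw [if_neg (show (φ (x, c₁)).1 ∉ (cyl ({x.1 0} : Set Base) : Set Pts) from hne)] at hp
    have := congrArg Prod.snd hp
    simp only [hcol] at this
    exact t.1 this.symm
  refine Equiv.ext fun ⟨x, c⟩ => Prod.ext ?_ (hcol x c)
  show (φ (x, c)).1 = x
  rw [hpt x c c₁]
  refine Subtype.ext (funext fun z => ?_)
  have := horigin (sys.sh z x)
  rw [hall z x] at this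
  simpa [sys, shiftFun] using this

/-- The colours of a generator are those it moves somewhere. -/
theorem colours_iff (i : Fin (kk n)) (e : Fin n) :
    e ∈ (idx i).colours ↔ ∃ x, (iota i).perm sys (x, e) ≠ (x, e) := by
  constructor
  · intro he
    obtain ⟨x, hx⟩ := (idx i).2.1
    have hU : x ∈ ((iota i).U : Set Pts) := hx
    have he' : e = (iota i).p.2 ∨ e = (iota i).q.2 ∨ e = (iota i).r.2 := by
      simpa [Idx.colours, iota, Idx.gen] using he
    rcases he' with rfl | rfl | rfl
    · refine ⟨sys.sh (iota i).p.1 x, fun hne => (iota i).tri.1 ?_⟩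
      have := Sys.cycFun_fst (S := sys) (U := ((iota i).U : Set Pts)) (p := (iota i).p)
        (q := (iota i).q) (r := (iota i).r) (z := (sys.sh (iota i).p.1 x, (iota i).p.2)) rfl
        (by rw [sys.sh_neg_cancel]; exact hU)
      exact (congrArg Prod.snd (hne.symm.trans this)).trans rfl
    · refine ⟨sys.sh (iota i).q.1 x, fun hne => (iota i).tri.2.1 ?_⟩
      have := Sys.cycFun_snd (S := sys) (U := ((iota i).U : Set Pts)) (iota i).tri
        (z := (sys.sh (iota i).q.1 x, (iota i).q.2)) rfl (by rw [sys.sh_neg_cancel]; exact hU)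
      exact (congrArg Prod.snd (hne.symm.trans this)).trans rfl
    · refine ⟨sys.sh (iota i).r.1 x, fun hne => (iota i).tri.2.2 ?_⟩
      have := Sys.cycFun_trd (S := sys) (U := ((iota i).U : Set Pts)) (iota i).tri
        (z := (sys.sh (iota i).r.1 x, (iota i).r.2)) rfl (by rw [sys.sh_neg_cancel]; exact hU)
      exact (congrArg Prod.snd (hne.symm.trans this)).symm
  · rintro ⟨x, hx⟩
    by_contra he
    refine hx ((iota i).perm_apply_of_notMem fun hz => he ?_)
    obtain ⟨a, ha, e', -⟩ := ((iota i).mem_supp_iff _).1 hz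
    simp only at e'
    subst e'
    rcases ha with rfl | rfl | rfl <;> simp [Idx.colours, iota, Idx.gen]

end Vale.Agent.P196.Full.Lift
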