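import Vale.Agent.P196.Full.Lift.Pres.Words
import Vale.Agent.P196.Full.Universal.Conj

/-!
# P196: enough short relations

The finitely many identities needed by the lift, all true for the permutations, hold in `Grp n L`
for some `L`.
-/

namespace Vale.Agent.P196.Full.Lift

open Calculus Tiles
open scoped commutatorElement

variable {n : ℕ}

/-- The sum-zero translation of colour `c` against colour `c₀`. -/
def pairVec (c c₀ : Fin n) (v : Lat) : Fin n → Lat := Pi.single c v - Pi.single c₀ v

theorem sum_pairVec (c c₀ : Fin n) (v : Lat) : ∑ e, pairVec c c₀ v e = 0 := by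
  simp [pairVec, Finset.sum_sub_distrib]

theorem exists_fresh_dist (hn : 8 ≤ n) {a b : Fin n} (hab : a ≠ b) :
    ∃ c d, Dist a b c ∧ Dist b c d ∧ a ≠ d := by
  obtain ⟨c, hc⟩ := exists_fresh [a, b] (by simp; omega)
  obtain ⟨d, hd⟩ := exists_fresh [a, b, c] (by simp; omega)
  simp only [List.mem_cons, List.not_mem_nil, or_false, not_or] at hc hd
  exact ⟨c, d, ⟨hab, Ne.symm hc.2, Ne.symm hc.1⟩, ⟨Ne.symm hc.2, Ne.symm hd.2.2, Ne.symm hd.2.1⟩,
    Ne.symm hd.1⟩

/-- The words in the generators whose colours lie in `D`. -/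
def colWords (D : Finset (Fin n)) : Subgroup (FreeGroup (Fin (kk n))) :=
  Subgroup.closure {w | ∃ i, w = FreeGroup.of i ∧ ∀ e ∈ (idx i).colours, e ∈ D}

/-- A word with few colours for a unit translation of two colours. -/
theorem exists_wM [Nonempty Pts] {a b c d : Fin n} (h : Dist a b c) (h' : Dist b c d) (had : a ≠ d)
    (ax : Bool) :
    ∃ w ∈ colWords {a, b, c, d}, evG w = mv sys (pairVec a b (axisVec ax 1 0)) := by
  have key : ∀ v : Small, mv sys (Pi.single b v.1) *
      fam n (fun _ : Pts => cyc a b c h * cyc b c d h') * (mv sys (Pi.single b v.1))⁻¹ ∈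
      (colWords {a, b, c, d}).map evG := by
    intro v
    refine ((Subgroup.closure_le _).2 ?_) (exists_wT h h' v)
    rintro g ⟨i, rfl, hi⟩
    exact ⟨FreeGroup.of i, Subgroup.subset_closure ⟨i, rfl, fun e he => by simpa using hi e he⟩,
      evG_of i⟩
  have k0 := key s0
  rw [show (s0 : Small).1 = 0 from rfl, Pi.single_zero, mv_zero, one_mul, inv_one, mul_one] at k0
  have := Subgroup.mul_mem _ k0 (key (sE ax))
  rw [show (sE ax : Small).1 = axisVec ax 1 0 from rfl, mv_pair sys h h' had] at this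
  exact this

/-- The base colour. -/
def col0 (hn : 8 ≤ n) : Fin n := ⟨0, by omega⟩

open Classical in
/-- A word translating colour `c` by a unit against the base colour. -/
noncomputable def wL (hn : 8 ≤ n) (c : Fin n) (ax : Bool) : FreeGroup (Fin (kk n)) :=
  if h : ∃ w, evG w = mv sys (pairVec c (col0 hn) (axisVec ax 1 0)) then h.choose else 1

theorem evG_wL [Nonempty Pts] (hn : 8 ≤ n) (c : Fin n) (ax : Bool) :
    evG (wL hn c ax) = mv sys (pairVec c (col0 hn) (axisVec ax 1 0)) := by
  have h : ∃ w, evG w = mv sys (pairVec c (col0 hn) (axisVec ax 1 0)) := by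
    by_cases hc : c = col0 hn
    · subst hc
      exact ⟨1, by simp [pairVec]⟩
    · obtain ⟨a, b, h1, h2, h3⟩ := exists_fresh_dist hn hc
      obtain ⟨w, -, hw⟩ := exists_wM h1 h2 h3 ax
      exact ⟨w, hw⟩
  rw [wL, dif_pos h]
  exact h.choose_spec

/-- The word translating colours by `f`. -/
noncomputable def wLam (hn : 8 ≤ n) (f : Fin n → Lat) : FreeGroup (Fin (kk n)) :=
  ((List.finRange n).map fun c => wL hn c false ^ (f c).1 * wL hn c true ^ (f c).2).prod

/-- Colours translated by a vector on three colours and compensated at a fourth. -/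
def triVec (a b c d : Fin n) (u v w : Lat) : Fin n → Lat :=
  pairVec a d u + pairVec b d v + pairVec c d w

theorem triVec_fst {a b c d : Fin n} (h : Dist a b c) (hd : d ∉ [a, b, c]) (u v w : Lat) :
    triVec a b c d u v w a = u ∧ triVec a b c d u v w b = v ∧ triVec a b c d u v w c = w := by
  obtain ⟨h1, h2, h3⟩ := h
  simp only [List.mem_cons, List.not_mem_nil, or_false, not_or] at hd
  obtain ⟨d1, d2, d3⟩ := hd
  simp [triVec, pairVec, h1, h1.symm, h2, h2.symm, h3, h3.symm, Ne.symm d1, Ne.symm d2, Ne.symm d3]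

/-- The set of tiles as a family of colour permutations. -/
noncomputable def indFam (s : Set Base) (a : Alt n) : Base → Alt n :=
  open Classical in fun t => if t ∈ s then a else 1

theorem evG_wP_ind (s : Set Base) (a : Alt n) :
    evG (wP (indFam s a)) = placePerm (cyl s : Set Pts) a := by
  ext1 z
  rw [evG_wP, fam_apply, place_apply]
  by_cases h : z.1.1 0 ∈ s
  · rw [if_pos (mem_cyl.2 h)]
    simp [indFam, h]
  · rw [if_neg (fun e => h (mem_cyl.1 e))]
    simp [indFam, h]

/-- What is needed of the short relations. -/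
structure Enough (hn : 8 ≤ n) (L : ℕ) : Prop where
  fam_mul : ∀ y z : Base → Alt n, wmk L (wP (y * z)) = wmk L (wP y) * wmk L (wP z)
  gen_comm : ∀ i j : Fin (kk n), (∀ e ∈ (idx i).colours, e ∉ (idx j).colours) →
    Commute (wmk L (FreeGroup.of i)) (wmk L (FreeGroup.of j))
  perfect : ∀ i : Fin (kk n), ∃ w w' : FreeGroup (Fin (kk n)), wmk L (FreeGroup.of i) = ⁅wmk L w, wmk L w'⁆
  move_comm : ∀ c ax c' ax', Commute (wmk L (wL hn c ax)) (wmk L (wL hn c' ax'))
  move_base : ∀ ax, wmk L (wL hn (col0 hn) ax) = 1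
  move_mem : ∀ (a b c d : Fin n) (ax : Bool), Dist a b c → Dist b c d → a ≠ d →
    ∃ w ∈ colWords {a, b, c, d}, wmk L w = wmk L (wL hn a ax) * (wmk L (wL hn b ax))⁻¹
  move_conj : ∀ (π : Alt n) c ax, wmk L (wP fun _ => π) * wmk L (wL hn c ax) *
    (wmk L (wP fun _ => π))⁻¹ = wmk L (wL hn ((π : Equiv.Perm (Fin n)) c) ax) *
      (wmk L (wL hn ((π : Equiv.Perm (Fin n)) (col0 hn)) ax))⁻¹
  gen_eq : ∀ (i : Fin (kk n)) d, d ∉ (idx i).colours →
    wmk L (FreeGroup.of i) =
      wmk L (wLam hn (triVec (iota i).p.2 (iota i).q.2 (iota i).r.2 d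
        (iota i).p.1 (iota i).q.1 (iota i).r.1)) *
      wmk L (wP (indFam (idx i).1.1 (cyc (iota i).p.2 (iota i).q.2 (iota i).r.2 (iota i).tri))) *
      (wmk L (wLam hn (triVec (iota i).p.2 (iota i).q.2 (iota i).r.2 d
        (iota i).p.1 (iota i).q.1 (iota i).r.1)))⁻¹
  small : ∀ (s : Set Base) (a b c : Fin n) (h : Dist a b c),
    wmk L (wP (indFam s (cyc a b c h))) = 1 ∨ ∃ i : Fin (kk n), (idx i).colours = [a, b, c] ∧
      wmk L (wP (indFam s (cyc a b c h))) = wmk L (FreeGroup.of i)
  shift : ∀ (s t : Set Base) (ax : Bool),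
    (cyl t : Set Pts) = sys.translate (axisVec ax 1 0) (cyl s) →
    ∀ (a b c d : Fin n) (h : Dist a b c), d ∉ [a, b, c] →
      wmk L (wP (indFam t (cyc a b c h))) =
        wmk L (wLam hn (triVec a b c d (axisVec ax 1 0) (axisVec ax 1 0) (axisVec ax 1 0))) *
        wmk L (wP (indFam s (cyc a b c h))) *
        (wmk L (wLam hn (triVec a b c d (axisVec ax 1 0) (axisVec ax 1 0) (axisVec ax 1 0))))⁻¹

/-- A map out of the sum-zero translations is fixed by its values on the unit translations
against the base colour. -/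
theorem eq_of_pairs {M : Type*} [Group M] (hn : 8 ≤ n) (φ ψ : (Fin n → Lat) → M)
    (hφ : ∀ f g : Fin n → Lat, ∑ c, f c = 0 → ∑ c, g c = 0 → φ (f + g) = φ f * φ g)
    (hψ : ∀ f g : Fin n → Lat, ∑ c, f c = 0 → ∑ c, g c = 0 → ψ (f + g) = ψ f * ψ g)
    (h : ∀ c ax, φ (pairVec c (col0 hn) (axisVec ax 1 0)) = ψ (pairVec c (col0 hn) (axisVec ax 1 0)))
    (f : Fin n → Lat) (hf : ∑ c, f c = 0) : φ f = ψ f := by
  classical
  let pr : (Fin n → Lat) →+ (Fin n → Lat) :=
    AddMonoidHom.mk' (fun f => f - Pi.single (col0 hn) (∑ c, f c)) fun f g => by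
      simp only [Pi.add_apply, Finset.sum_add_distrib, Pi.single_add]
      abel
  have hpr : ∀ f, ∑ c, pr f c = 0 := fun f => by
    simp [pr, Finset.sum_sub_distrib]
  let Φ : (Fin n → Lat) →+ Additive M :=
    AddMonoidHom.mk' (fun f => Additive.ofMul (φ (pr f))) fun f g => by
      rw [map_add, hφ _ _ (hpr f) (hpr g)]; rfl
  let Ψ : (Fin n → Lat) →+ Additive M :=
    AddMonoidHom.mk' (fun f => Additive.ofMul (ψ (pr f))) fun f g => by
      rw [map_add, hψ _ _ (hpr f) (hpr g)]; rfl
  have hsingle : ∀ c (v : Lat), pr (Pi.single c v) = pairVec c (col0 hn) v := fun c v => by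
    simp [pr, pairVec]
  have key : Φ = Ψ := by
    have h1 : ∀ c, Φ.comp (AddMonoidHom.single (fun _ => Lat) c) =
        Ψ.comp (AddMonoidHom.single (fun _ => Lat) c) := by
      intro c
      refine AddMonoidHom.ext fun v => ?_
      have e1 : ∀ ax : Bool, Φ (Pi.single c (axisVec ax 1 0)) = Ψ (Pi.single c (axisVec ax 1 0)) :=
        fun ax => congrArg Additive.ofMul (by rw [hsingle]; exact h c ax)
      have ev : v = v.1 • axisVec false 1 0 + v.2 • axisVec true 1 0 := by
        ext <;> simp [axisVec]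
      rw [ev, map_add, map_add, map_zsmul, map_zsmul, map_zsmul, map_zsmul]
      simp only [AddMonoidHom.comp_apply, AddMonoidHom.single_apply, e1]
    refine AddMonoidHom.ext fun f => ?_
    have hall : ∀ (F : Finset (Fin n)), Φ (∑ c ∈ F, Pi.single c (f c)) =
        Ψ (∑ c ∈ F, Pi.single c (f c)) := by
      intro F
      induction F using Finset.induction with
      | empty => simp
      | insert c F hc ih =>
        rw [Finset.sum_insert hc, map_add, map_add, ih]
        exact congrArg (· + _) (DFunLike.congr_fun (h1 c) (f c))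
    simpa [Finset.univ_sum_single] using hall Finset.univ
  have := DFunLike.congr_fun key f
  have e : pr f = f := by simp [pr, hf]
  simpa [Φ, Ψ, e] using congrArg Additive.toMul this

theorem evG_wLam_add [Nonempty Pts] (hn : 8 ≤ n) (f g : Fin n → Lat) :
    evG (wLam hn (f + g)) = evG (wLam hn f) * evG (wLam hn g) := by
  have key : ∀ (l : List (Fin n)) (f : Fin n → Lat),
      evG ((l.map fun c => wL hn c false ^ (f c).1 * wL hn c true ^ (f c).2).prod) =
        mv sys ((l.map fun c => (f c).1 • pairVec c (col0 hn) (axisVec false 1 0) +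
          (f c).2 • pairVec c (col0 hn) (axisVec true 1 0)).sum) := by
    intro l f
    induction l with
    | nil => simp
    | cons c l ih =>
      let μ : Multiplicative (Fin n → Lat) →* Equiv.Perm (Pt Pts n) :=
        MonoidHom.mk' (fun f => mv sys f.toAdd) fun f g => mv_add sys f.toAdd g.toAdd
      have hz : ∀ (k : ℤ) (h : Fin n → Lat), mv sys h ^ k = mv sys (k • h) := fun k h =>
        (map_zpow μ (Multiplicative.ofAdd h) k).symm
      simp only [List.map_cons, List.prod_cons, List.sum_cons, map_mul, map_zpow, evG_wL, mv_add,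
        ih, hz]
  unfold wLam
  rw [key, key, key, ← mv_add]
  congr 1
  simp only [Pi.add_apply, Prod.fst_add, Prod.snd_add]
  induction List.finRange n with
  | nil => simp
  | cons c l ih =>
    simp only [List.map_cons, List.sum_cons]
    rw [ih, add_zsmul, add_zsmul]
    abel

theorem evG_wLam [Nonempty Pts] (hn : 8 ≤ n) {f : Fin n → Lat} (hf : ∑ c, f c = 0) :
    evG (wLam hn f) = mv sys f := by
  classical
  refine eq_of_pairs hn (fun f => evG (wLam hn f)) (mv sys) (fun f g _ _ => evG_wLam_add hn f g)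
    (fun f g _ _ => mv_add sys f g) (fun c ax => ?_) f hf
  set e : Lat := axisVec ax 1 0 with he
  have hadd := evG_wLam_add hn (pairVec c (col0 hn) e) (Pi.single (col0 hn) e)
  have hs : pairVec c (col0 hn) e + Pi.single (col0 hn) e = Pi.single c e := sub_add_cancel _ _
  have hsingle : ∀ c', evG (wLam hn (Pi.single c' e)) =
      mv sys (pairVec c' (col0 hn) e) := by
    intro c'
    have hl : ∀ l : List (Fin n), l.Nodup →
        evG ((l.map fun d => wL hn d false ^ ((Pi.single c' e : Fin n → Lat) d).1 *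
          wL hn d true ^ ((Pi.single c' e : Fin n → Lat) d).2).prod) =
        if c' ∈ l then mv sys (pairVec c' (col0 hn) e) else 1 := by
      intro l hl
      induction l with
      | nil => simp
      | cons d l ih =>
        rw [List.nodup_cons] at hl
        rw [List.map_cons, List.prod_cons, map_mul, ih hl.2]
        by_cases hd : d = c'
        · subst hd
          rw [if_neg hl.1, if_pos (List.mem_cons_self ..), mul_one, he]
          cases ax <;> simp [axisVec, map_mul, evG_wL]
        · simp [hd, Ne.symm hd]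
    unfold wLam
    rw [hl _ (List.nodup_finRange n), if_pos (List.mem_finRange c')]
  rw [hs, hsingle c, hsingle (col0 hn)] at hadd
  show evG (wLam hn (pairVec c (col0 hn) e)) = mv sys (pairVec c (col0 hn) e)
  rw [hadd, show pairVec (col0 hn) (col0 hn) e = 0 from sub_self _, mv_zero, mul_one]

theorem perm_commute_of_colours (S : Sys Pts) (g h : Gen Pts n)
    (hd : ∀ e ∈ [g.p.2, g.q.2, g.r.2], e ∉ [h.p.2, h.q.2, h.r.2]) :
    Commute (g.perm S) (h.perm S) :=
  Equiv.Perm.Disjoint.commute fun z => by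
    by_cases hz : z ∈ g.supp S
    · refine Or.inr (h.perm_apply_of_notMem fun hz' => ?_)
      obtain ⟨a, ha, e, -⟩ := (g.mem_supp_iff z).1 hz
      obtain ⟨b, hb, e', -⟩ := (h.mem_supp_iff z).1 hz'
      refine hd a.2 (by rcases ha with rfl | rfl | rfl <;> simp) ?_
      rw [← e, e']
      rcases hb with rfl | rfl | rfl <;> simp
    · exact Or.inl (g.perm_apply_of_notMem hz)

theorem exists_enough [Nonempty Pts] (hn : 8 ≤ n) : ∃ L, Enough hn L := by
  have h1 : ∀ᶠ L in Filter.atTop, ∀ y z : Base → Alt n,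
      wmk L (wP (y * z)) = wmk L (wP y) * wmk L (wP z) := by
    refine Filter.eventually_all.2 fun y => Filter.eventually_all.2 fun z => ?_
    filter_upwards [eventually_eq (w := wP (y * z)) (w' := wP y * wP z)
      (by rw [map_mul, evG_wP, evG_wP, evG_wP, ← map_mul]; rfl)] with L hL
    simpa using hL
  have h2 : ∀ᶠ L in Filter.atTop, ∀ i j : Fin (kk n),
      (∀ e ∈ (idx i).colours, e ∉ (idx j).colours) →
      Commute (wmk L (FreeGroup.of i)) (wmk L (FreeGroup.of j)) := by
    refine Filter.eventually_all.2 fun i => Filter.eventually_all.2 fun j =>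
      Filter.eventually_imp_distrib_left.2 fun hd => eventually_commute ?_
    rw [evG_of, evG_of]
    exact perm_commute_of_colours sys _ _ hd
  have h3 : ∀ᶠ L in Filter.atTop, ∀ i : Fin (kk n),
      ∃ w w' : FreeGroup (Fin (kk n)), wmk L (FreeGroup.of i) = ⁅wmk L w, wmk L w'⁆ := by
    refine Filter.eventually_all.2 fun i => ?_
    obtain ⟨a, ha⟩ := exists_fresh (idx i).colours (by simp [Idx.colours]; omega)
    obtain ⟨f, hf⟩ : ∃ f : Fin n → Lat, f = triVec (iota i).p.2 (iota i).q.2 (iota i).r.2 a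
        (iota i).p.1 (iota i).q.1 (iota i).r.1 := ⟨_, rfl⟩
    have hf0 : ∑ c, f c = 0 := by
      rw [hf]; simp [triVec, Finset.sum_add_distrib, sum_pairVec]
    obtain ⟨hp, hq, hr⟩ := triVec_fst (iota i).tri ha (iota i).p.1 (iota i).q.1 (iota i).r.1
    rw [← hf] at hp hq hr
    obtain ⟨b, hb⟩ := exists_fresh ((iota i).p.2 :: [(iota i).q.2, (iota i).r.2, a]) (by simp; omega)
    obtain ⟨x, y, hxy⟩ : ∃ x y : Alt n,
        cyc (iota i).p.2 (iota i).q.2 (iota i).r.2 (iota i).tri = ⁅x, y⁆ := by
      simp only [Idx.colours, List.mem_cons, List.not_mem_nil, or_false, not_or] at ha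
      simp only [List.mem_cons, List.not_mem_nil, or_false, not_or] at hb
      have t1 : Dist (iota i).q.2 a (iota i).p.2 :=
        ⟨Ne.symm ha.2.1, ha.1, (iota i).tri.1.symm⟩
      have t2 : Dist (iota i).p.2 (iota i).r.2 b :=
        ⟨(iota i).tri.2.2, Ne.symm hb.2.2.1, Ne.symm hb.1⟩
      exact ⟨_, _, (commutator_cyc t1 t2 (iota i).tri (Ne.symm hb.2.1) ha.2.2 (Ne.symm hb.2.2.2)).symm⟩
    refine (eventually_eq (w := FreeGroup.of i)
      (w' := ⁅wLam hn f * wP (indFam (idx i).1.1 x) * (wLam hn f)⁻¹,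
        wLam hn f * wP (indFam (idx i).1.1 y) * (wLam hn f)⁻¹⁆) ?_).mono fun L hL =>
      ⟨wLam hn f * wP (indFam (idx i).1.1 x) * (wLam hn f)⁻¹,
        wLam hn f * wP (indFam (idx i).1.1 y) * (wLam hn f)⁻¹, by rw [hL, map_commutatorElement]⟩
    rw [map_commutatorElement, evG_of, perm_eq_conj sys (iota i) f hp hq hr, hxy,
      map_commutatorElement]
    simp only [map_mul, map_inv, evG_wLam hn hf0, evG_wP_ind, commutatorElement_def]
    have : ((iota i).U : Set Pts) = (cyl (idx i).1.1 : Set Pts) := rfl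
    rw [this]
    group
  have h4 : ∀ᶠ L in Filter.atTop, ∀ c ax c' ax',
      Commute (wmk L (wL hn c ax)) (wmk L (wL hn c' ax')) := by
    refine Filter.eventually_all.2 fun c => Filter.eventually_all.2 fun ax =>
      Filter.eventually_all.2 fun c' => Filter.eventually_all.2 fun ax' => eventually_commute ?_
    rw [evG_wL, evG_wL]
    exact commute_mv sys _ _
  have h5 : ∀ᶠ L in Filter.atTop, ∀ ax, wmk L (wL hn (col0 hn) ax) = 1 :=
    Filter.eventually_all.2 fun ax => eventually_one (by simp [evG_wL, pairVec])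
  have h6 : ∀ᶠ L in Filter.atTop, ∀ (a b c d : Fin n) (ax : Bool), Dist a b c → Dist b c d →
      a ≠ d → ∃ w ∈ colWords {a, b, c, d},
        wmk L w = wmk L (wL hn a ax) * (wmk L (wL hn b ax))⁻¹ := by
    refine Filter.eventually_all.2 fun a => Filter.eventually_all.2 fun b =>
      Filter.eventually_all.2 fun c => Filter.eventually_all.2 fun d =>
      Filter.eventually_all.2 fun ax => Filter.eventually_imp_distrib_left.2 fun h =>
      Filter.eventually_imp_distrib_left.2 fun h' => Filter.eventually_imp_distrib_left.2 fun had => ?_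
    obtain ⟨w, hw, e⟩ := exists_wM h h' had ax
    refine (eventually_eq (w := w) (w' := wL hn a ax * (wL hn b ax)⁻¹) ?_).mono fun L hL =>
      ⟨w, hw, by rw [hL, map_mul, map_inv]⟩
    rw [e, map_mul, map_inv, evG_wL, evG_wL, ← mv_neg, ← mv_add]
    congr 1
    simp [pairVec]
  have h7 : ∀ᶠ L in Filter.atTop, ∀ (π : Alt n) c ax, wmk L (wP fun _ => π) * wmk L (wL hn c ax) *
      (wmk L (wP fun _ => π))⁻¹ = wmk L (wL hn ((π : Equiv.Perm (Fin n)) c) ax) *
        (wmk L (wL hn ((π : Equiv.Perm (Fin n)) (col0 hn)) ax))⁻¹ := by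
    refine Filter.eventually_all.2 fun π => Filter.eventually_all.2 fun c =>
      Filter.eventually_all.2 fun ax => ?_
    refine (eventually_eq (w := (wP fun _ => π) * wL hn c ax * (wP fun _ => π)⁻¹)
      (w' := wL hn ((π : Equiv.Perm (Fin n)) c) ax *
        (wL hn ((π : Equiv.Perm (Fin n)) (col0 hn)) ax)⁻¹) ?_).mono fun L hL => by simpa using hL
    simp only [map_mul, map_inv, evG_wP, evG_wL]
    rw [show ((fun _ => π) ∘ fun x : Pts => x.1 0) = fun _ : Pts => π from rfl, conj_mv, ← mv_neg,
      ← mv_add]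
    congr 1
    funext e
    simp only [pairVec, Function.comp_apply, Pi.sub_apply, Pi.add_apply, Pi.neg_apply,
      Pi.single_apply, Equiv.Perm.inv_eq_iff_eq]
    simp only [eq_comm (a := e)]
    abel
  have h8 : ∀ᶠ L in Filter.atTop, ∀ (i : Fin (kk n)) d, d ∉ (idx i).colours →
      wmk L (FreeGroup.of i) =
      wmk L (wLam hn (triVec (iota i).p.2 (iota i).q.2 (iota i).r.2 d
        (iota i).p.1 (iota i).q.1 (iota i).r.1)) *
      wmk L (wP (indFam (idx i).1.1 (cyc (iota i).p.2 (iota i).q.2 (iota i).r.2 (iota i).tri))) *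
      (wmk L (wLam hn (triVec (iota i).p.2 (iota i).q.2 (iota i).r.2 d
        (iota i).p.1 (iota i).q.1 (iota i).r.1)))⁻¹ := by
    refine Filter.eventually_all.2 fun i => Filter.eventually_all.2 fun d =>
      Filter.eventually_imp_distrib_left.2 fun hd => ?_
    obtain ⟨hp, hq, hr⟩ := triVec_fst (iota i).tri hd (iota i).p.1 (iota i).q.1 (iota i).r.1
    refine (eventually_eq (w := FreeGroup.of i) (w' :=
      wLam hn (triVec (iota i).p.2 (iota i).q.2 (iota i).r.2 d (iota i).p.1 (iota i).q.1 (iota i).r.1) *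
      wP (indFam (idx i).1.1 (cyc (iota i).p.2 (iota i).q.2 (iota i).r.2 (iota i).tri)) *
      (wLam hn (triVec (iota i).p.2 (iota i).q.2 (iota i).r.2 d
        (iota i).p.1 (iota i).q.1 (iota i).r.1))⁻¹) ?_).mono fun L hL => by
      simpa only [map_mul, map_inv] using hL
    rw [map_mul, map_mul, map_inv, evG_of, evG_wLam hn (by simp [triVec, Finset.sum_add_distrib,
      sum_pairVec]), evG_wP_ind]
    exact perm_eq_conj sys (iota i) _ hp hq hr
  have h9 : ∀ᶠ L in Filter.atTop, ∀ (s : Set Base) (a b c : Fin n) (h : Dist a b c),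
      wmk L (wP (indFam s (cyc a b c h))) = 1 ∨ ∃ i : Fin (kk n), (idx i).colours = [a, b, c] ∧
        wmk L (wP (indFam s (cyc a b c h))) = wmk L (FreeGroup.of i) := by
    refine Filter.eventually_all.2 fun s => Filter.eventually_all.2 fun a =>
      Filter.eventually_all.2 fun b => Filter.eventually_all.2 fun c =>
      Filter.eventually_all.2 fun h => ?_
    by_cases hs : (cyl s : Set Pts).Nonempty
    · let p : Idx n := ⟨(s, (s0, a), (s0, b), (s0, c)), hs, h⟩
      refine (eventually_eq (w := wP (indFam s (cyc a b c h))) (w' := FreeGroup.of (ix p))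
        ?_).mono fun L hL => Or.inr ⟨ix p, by rw [idx_ix]; rfl, hL⟩
      rw [evG_wP_ind, evG_of, iota, idx_ix, perm_eq_conj sys p.gen 0 rfl rfl rfl, mv_zero, one_mul,
        inv_one, mul_one]
      rfl
    · refine (eventually_one ?_).mono fun L hL => Or.inl hL
      rw [evG_wP_ind]
      ext1 z
      rw [place_apply, Set.not_nonempty_iff_eq_empty.1 hs]
      simp
  have h10 : ∀ᶠ L in Filter.atTop, ∀ (s t : Set Base) (ax : Bool),
      (cyl t : Set Pts) = sys.translate (axisVec ax 1 0) (cyl s) →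
      ∀ (a b c d : Fin n) (h : Dist a b c), d ∉ [a, b, c] →
      wmk L (wP (indFam t (cyc a b c h))) =
        wmk L (wLam hn (triVec a b c d (axisVec ax 1 0) (axisVec ax 1 0) (axisVec ax 1 0))) *
        wmk L (wP (indFam s (cyc a b c h))) *
        (wmk L (wLam hn (triVec a b c d (axisVec ax 1 0) (axisVec ax 1 0) (axisVec ax 1 0))))⁻¹ := by
    refine Filter.eventually_all.2 fun s => Filter.eventually_all.2 fun t =>
      Filter.eventually_all.2 fun ax => Filter.eventually_imp_distrib_left.2 fun hst =>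
      Filter.eventually_all.2 fun a => Filter.eventually_all.2 fun b =>
      Filter.eventually_all.2 fun c => Filter.eventually_all.2 fun d =>
      Filter.eventually_all.2 fun h => Filter.eventually_imp_distrib_left.2 fun hd => ?_
    refine (eventually_eq (w := wP (indFam t (cyc a b c h))) (w' :=
      wLam hn (triVec a b c d (axisVec ax 1 0) (axisVec ax 1 0) (axisVec ax 1 0)) *
      wP (indFam s (cyc a b c h)) *
      (wLam hn (triVec a b c d (axisVec ax 1 0) (axisVec ax 1 0) (axisVec ax 1 0)))⁻¹)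
      ?_).mono fun L hL => by simpa only [map_mul, map_inv] using hL
    rw [map_mul, map_mul, map_inv, evG_wP_ind, evG_wP_ind, evG_wLam hn (by
      simp [triVec, Finset.sum_add_distrib, sum_pairVec])]
    obtain ⟨ha, hb, hc⟩ := triVec_fst h hd (axisVec ax 1 0) (axisVec ax 1 0) (axisVec ax 1 0)
    generalize triVec a b c d (axisVec ax 1 0) (axisVec ax 1 0) (axisVec ax 1 0) = f at ha hb hc ⊢
    rw [eq_mul_inv_iff_mul_eq]
    ext1 ⟨x, e⟩
    simp only [Equiv.Perm.mul_apply, mv_apply, place_apply]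
    have hx : sys.sh (f e) x ∈ (cyl t : Set Pts) ↔
        sys.sh (-axisVec ax 1 0) (sys.sh (f e) x) ∈ (cyl s : Set Pts) := by
      rw [hst]; rfl
    by_cases hea : e = a
    · subst hea
      rw [ha, sys.sh_neg_cancel] at hx
      by_cases hxs : x ∈ (cyl s : Set Pts) <;>
        simp [ha, hb, hx, hxs, cyc_apply_fst _ _ _ h]
    by_cases heb : e = b
    · subst heb
      rw [hb, sys.sh_neg_cancel] at hx
      by_cases hxs : x ∈ (cyl s : Set Pts) <;>
        simp [hb, hc, hx, hxs, cyc_apply_snd _ _ _ h]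
    by_cases hec : e = c
    · subst hec
      rw [hc, sys.sh_neg_cancel] at hx
      by_cases hxs : x ∈ (cyl s : Set Pts) <;>
        simp [hc, ha, hx, hxs, cyc_apply_thd _ _ _ h]
    · simp [cyc_apply_of_ne _ _ _ h hea heb hec]
  obtain ⟨L, ⟨l1, l2, l3, l4, l5⟩, l6, l7, l8, l9, l10⟩ :=
    ((h1.and (h2.and (h3.and (h4.and h5)))).and
      (h6.and (h7.and (h8.and (h9.and h10))))).exists
  exact ⟨L, ⟨l1, l2, l3, l4, l5, l6, l7, l8, l9, l10⟩⟩

end Vale.Agent.P196.Full.Lift
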