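import Vale.Agent.P196.Full.Lift.Pres.Model

/-!
# P196: a valuation evaluates to the clopen sets it is indexed by
-/

namespace Vale.Agent.P196.Full.Lift

open Calculus Tiles
open scoped commutatorElement

variable {n : ℕ}

/-- Homomorphisms of the alternating group agreeing on three-cycles are equal. -/
theorem hom_ext_cyc {H : Type*} [Group H] {f g : Alt n →* H}
    (h : ∀ a b c (d : Dist a b c), f (cyc a b c d) = g (cyc a b c d)) : f = g := by
  refine MonoidHom.eq_of_eqOn_dense (s := {x | ∃ a b c d, x = cyc a b c d})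
    (eq_top_of_cyc _ fun a b c d => Subgroup.subset_closure ⟨a, b, c, d, rfl⟩) ?_
  rintro _ ⟨a, b, c, d, rfl⟩
  exact h a b c d

theorem place_commutator {X : Type} [TopologicalSpace X] (U V : Set X) (x y : Alt n) :
    (⁅placePerm U x, placePerm V y⁆ : Equiv.Perm (Pt X n)) = placePerm (U ∩ V) ⁅x, y⁆ := by
  classical
  show ⁅fam n _, fam n _⁆ = fam n _
  rw [← map_commutatorElement]
  refine congrArg (fam n) (funext fun z => ?_)
  simp only [MonoidHom.mk'_apply, commutatorElement_def, Pi.mul_apply, Pi.inv_apply]
  by_cases h : z ∈ U <;> by_cases h' : z ∈ V <;> simp [h, h']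

theorem place_union {X : Type} [TopologicalSpace X] {U V : Set X} (hd : Disjoint U V) (x : Alt n) :
    (placePerm (U ∪ V) x : Equiv.Perm (Pt X n)) = placePerm U x * placePerm V x := by
  classical
  show fam n _ = fam n _ * fam n _
  rw [← map_mul]
  refine congrArg (fam n) (funext fun z => ?_)
  simp only [MonoidHom.mk'_apply, Pi.mul_apply]
  by_cases h : z ∈ U
  · simp [h, Set.disjoint_left.1 hd h]
  · by_cases h' : z ∈ V <;> simp [h, h']

section

variable {hn : 8 ≤ n} {L : ℕ} {hL : Enough hn L} [Nonempty Pts]
  (V : Valuation (amp hL) (basePart hL))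

/-- The clopen sets on which the valuation evaluates as it should. -/
def Evals (U : Clo Pts) : Prop := ∀ x, evQ hn L (V.E U x) = placePerm (U : Set Pts) x

theorem Evals.inf {U U' : Clo Pts} (h : Evals V U) (h' : Evals V U') : Evals V (U ⊓ U') := by
  have : (evQ hn L).comp (V.E (U ⊓ U')) = placePerm ((U : Set Pts) ∩ (U' : Set Pts)) := by
    refine hom_ext_commutator (by omega) fun a b => ?_
    show evQ hn L (V.E (U ⊓ U') ⁅a, b⁆) = _
    rw [← V.inter U U' a b, map_commutatorElement, h, h', place_commutator]
  intro x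
  exact DFunLike.congr_fun this x

theorem Evals.compl {U : Clo Pts} (h : Evals V U) : Evals V Uᶜ := by
  intro x
  have hd : Disjoint (U : Set Pts) ((Uᶜ : Clo Pts) : Set Pts) :=
    Set.disjoint_left.2 fun z hz hz' => hz' hz
  have hu := V.union U Uᶜ hd x
  rw [show U ⊔ Uᶜ = ⊤ from sup_compl_eq_top, V.top] at hu
  have := congrArg (evQ hn L) hu
  rw [map_mul, h] at this
  have htop : evQ hn L ((amp hL).u x) = placePerm ((U : Set Pts) ∪ ((Uᶜ : Clo Pts) : Set Pts)) x := by
    show evQ hn L (qm L (wP fun _ => x)) = _
    rw [evQ_qm, evG_wP]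
    ext1 z
    rw [fam_apply, place_apply, if_pos]
    · rfl
    · exact (Classical.em (z.1 ∈ (U : Set Pts))).imp id id
  rw [htop, place_union hd] at this
  exact (mul_left_cancel this).symm

theorem Evals.sup {U U' : Clo Pts} (h : Evals V U) (h' : Evals V U') : Evals V (U ⊔ U') := by
  have := ((h.compl V).inf V (h'.compl V)).compl V
  rwa [compl_inf, compl_compl, compl_compl] at this

theorem Evals.finset {ι : Type*} (s : Finset ι) (F : ι → Clo Pts) (h : ∀ i ∈ s, Evals V (F i)) :
    Evals V (s.sup F) := by
  induction s using Finset.cons_induction with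
  | empty =>
    rw [Finset.sup_empty]
    have htop : Evals V ⊤ := fun x => by
      rw [V.top]
      show evQ hn L (qm L (wP fun _ => x)) = _
      rw [evQ_qm, evG_wP]
      ext1 z
      rw [fam_apply, place_apply, if_pos (show z.1 ∈ ((⊤ : Clo Pts) : Set Pts) from trivial)]
      rfl
    have := htop.compl V
    rwa [compl_top] at this
  | cons i s hi ih =>
    rw [Finset.sup_cons]
    exact (h i (Finset.mem_cons_self i s)).sup V
      (ih fun j hj => h j (Finset.mem_cons.2 (Or.inr hj)))

/-- A tile of level `0` as a base tile. -/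
def ltBase (t : LTile 0) : Base := ⟨t.1, t.2⟩

theorem ltBase_inj {t t' : LTile 0} (h : ltBase t = ltBase t') : t = t' :=
  Subtype.ext (congrArg Subtype.val h)

/-- A valuation gives the cylinder of a set of tiles the block of that set. -/
theorem valuation_cyl (s : Set Base) :
    V.E (cyl s) = block (basePart hL) (fun t => ltBase t ∈ s) := by
  classical
  have hone : ∀ p : LTile 0 → Prop, (∀ t, ¬p t) → block (basePart hL) p = 1 := by
    intro p hp
    refine MonoidHom.ext fun x => ?_
    show (qP hL) _ = 1
    convert map_one (qP hL) using 2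
    funext t
    show Pi.mulSingle (M := fun _ : Bool => Alt n) true x (decide (p t)) = 1
    simp [hp t]
  have : ∀ s : Finset Base,
      V.E (cyl (s : Set Base)) = block (basePart hL) (fun t => ltBase t ∈ s) := by
    intro s
    induction s using Finset.induction with
    | empty =>
      rw [hone _ fun t => Finset.notMem_empty (ltBase t)]
      refine MonoidHom.ext fun x => ?_
      have h := V.union (cyl (↑(∅ : Finset Base))) (cyl (↑(∅ : Finset Base)))
        (Set.disjoint_left.2 fun z hz => absurd (mem_cyl.1 hz) (by simp)) x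
      rw [sup_idem] at h
      exact left_eq_mul.1 h
    | insert t s ht ih =>
      refine MonoidHom.ext fun x => ?_
      have hd : Disjoint (cyl ({t} : Set Base) : Set Pts) (cyl (s : Set Base) : Set Pts) :=
        Set.disjoint_left.2 fun z hz hz' => by
          rw [mem_cyl, Set.mem_singleton_iff] at hz
          rw [mem_cyl, hz] at hz'
          exact ht hz'
      have he : cyl (↑(insert t s) : Set Base) = cyl ({t} : Set Base) ⊔ cyl (s : Set Base) :=
        TopologicalSpace.Clopens.ext (by ext z; simp [cyl])
      rw [he, V.union _ _ hd x, ih,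
        V.base (cyl ({t} : Set Base)) (t : Base) (fun z => by
          rw [mem_cyl, Set.mem_singleton_iff]
          exact ⟨fun e => congrArg Subtype.val e, fun e => Subtype.ext e⟩) x]
      show qP hL _ * qP hL _ = qP hL _
      rw [← map_mul]
      refine congrArg (qP hL) (funext fun t' => ?_)
      simp only [MonoidHom.mk'_apply, Pi.mul_apply, Function.comp_apply, MonoidHom.mulSingle_apply]
      by_cases h1 : ltBase t' = t
      · have h2 : ltBase t' ∉ s := h1 ▸ ht
        have h3 : ltBase t' ∈ insert t s := h1 ▸ Finset.mem_insert_self t s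
        have h4 : t' = (⟨t.1, t.2⟩ : LTile 0) := Subtype.ext (congrArg Subtype.val h1)
        subst h4
        simp only [h2, h3, eq_self_iff_true, decide_true, decide_false,
          Pi.mulSingle_eq_same, Pi.mulSingle_eq_of_ne Bool.false_ne_true, mul_one]
        convert Pi.mulSingle_eq_same (M := fun _ : Bool => Alt n) true x using 2
        exact decide_eq_true rfl
      · have h2 : ¬t' = (⟨t.1, t.2⟩ : LTile 0) := fun e => h1 (Subtype.ext (congrArg Subtype.val e))
        by_cases h3 : ltBase t' ∈ s
        · simp only [show ¬t' = (t : Base) from h2, h3, Finset.mem_insert_of_mem h3, decide_true,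
            decide_false, Pi.mulSingle_eq_same, Pi.mulSingle_eq_of_ne Bool.false_ne_true, one_mul]
        · have h4 : ltBase t' ∉ insert t s := fun e => (Finset.mem_insert.1 e).elim h1 h3
          simp only [show ¬t' = (t : Base) from h2, h3, h4, decide_false,
            Pi.mulSingle_eq_of_ne Bool.false_ne_true, one_mul]
  have hfin := (Set.toFinite s).coe_toFinset
  rw [← hfin, this]
  congr 1

theorem evals_cyl (s : Set Base) : Evals V (cyl s) := by
  intro x
  rw [valuation_cyl V, block_basePart, evQ_qm, evG_wP_ind]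
  rfl

theorem Evals.translate {U U' : Clo Pts} {v : Lat} (h : Evals V U)
    (e : (U' : Set Pts) = sys.translate v U) : Evals V U' := by
  have : (evQ hn L).comp (V.E U') = placePerm (U' : Set Pts) := by
    refine hom_ext_cyc fun a b c d => ?_
    obtain ⟨g, hg, hv⟩ := Amp.exists_transl_list v [a, b, c]
      (by simp only [List.length_cons, List.length_nil]; omega)
    show evQ hn L (V.E U' (cyc a b c d)) = _
    rw [V.translate U U' v e a b c d g hg (hv a (by simp)) (hv b (by simp)) (hv c (by simp)),
      map_mul, map_mul, map_inv, h]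
    show evQ hn L (qm L (wLam hn g)) * _ * (evQ hn L (qm L (wLam hn g)))⁻¹ = _
    rw [evQ_qm, evG_wLam hn hg, mul_inv_eq_iff_eq_mul, e]
    ext1 ⟨z, k⟩
    simp only [Equiv.Perm.mul_apply, mv_apply, place_apply]
    have hz : sys.sh (g k) z ∈ sys.translate v (U : Set Pts) ↔
        sys.sh (-v) (sys.sh (g k) z) ∈ (U : Set Pts) := Iff.rfl
    by_cases hka : k = a
    · subst hka
      rw [hv k (by simp), sys.sh_neg_cancel] at hz
      by_cases hzU : z ∈ (U : Set Pts) <;>
        simp [hv k (by simp), hv b (by simp), hz, hzU, cyc_apply_fst _ _ _ d]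
    by_cases hkb : k = b
    · subst hkb
      rw [hv k (by simp), sys.sh_neg_cancel] at hz
      by_cases hzU : z ∈ (U : Set Pts) <;>
        simp [hv k (by simp), hv c (by simp), hz, hzU, cyc_apply_snd _ _ _ d]
    by_cases hkc : k = c
    · subst hkc
      rw [hv k (by simp), sys.sh_neg_cancel] at hz
      by_cases hzU : z ∈ (U : Set Pts) <;>
        simp [hv k (by simp), hv a (by simp), hz, hzU, cyc_apply_thd _ _ _ d]
    · simp [cyc_apply_of_ne _ _ _ d hka hkb hkc]
  intro x
  exact DFunLike.congr_fun this x

/-- Every clopen set evaluates as it should. -/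
theorem evals (U : Clo Pts) : Evals V U := by
  classical
  let site : ℤ × ℤ → Base → Clo Pts := fun z t =>
    ⟨{x | x.1 z = t}, (isClopen_discrete ({t} : Set Base)).preimage
      ((continuous_apply z).comp continuous_subtype_val)⟩
  have hsite : ∀ z t, Evals V (site z t) := fun z t =>
    (evals_cyl V {t}).translate V (v := -z) (Set.ext fun x => by
      show x.1 z = t ↔ (sys.sh (- -z) x).1 0 ∈ ({t} : Set Base)
      simp [sys, shiftFun])
  have hwin : ∀ x ∈ (U : Set Pts), ∃ W : Finset (ℤ × ℤ),
      ∀ y : Pts, (∀ z ∈ W, y.1 z = x.1 z) → y ∈ (U : Set Pts) := by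
    intro x hx
    obtain ⟨O, hO, hOU⟩ := isOpen_induced_iff.1 U.isClopen.isOpen
    have hx' : x.1 ∈ O := by rw [← hOU] at hx; exact hx
    obtain ⟨I, u, hu, hIO⟩ := isOpen_pi_iff.1 hO x.1 hx'
    refine ⟨I, fun y hy => ?_⟩
    rw [← hOU]
    exact hIO fun z hz => by rw [hy z hz]; exact (hu z hz).2
  choose W hW using hwin
  let N : Pts → Clo Pts := fun x => if hx : x ∈ (U : Set Pts) then
    ((W x hx).sup fun z => (site z (x.1 z))ᶜ)ᶜ else ⊥
  have hN : ∀ x, Evals V (N x) := by
    intro x
    by_cases hx : x ∈ (U : Set Pts)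
    · simp only [N, dif_pos hx]
      exact (Evals.finset V _ _ fun z _ => (hsite z _).compl V).compl V
    · simp only [N, dif_neg hx]
      simpa using Evals.finset V (∅ : Finset Pts) (fun _ => ⊥) (by simp)
  have hmem : ∀ (s : Finset (ℤ × ℤ)) (F : ℤ × ℤ → Clo Pts) (y : Pts),
      y ∈ ((s.sup F : Clo Pts) : Set Pts) ↔ ∃ z ∈ s, y ∈ (F z : Set Pts) := by
    intro s F y
    induction s using Finset.cons_induction with
    | empty => simp
    | cons i s hi ih => simp [ih]
  have hNmem : ∀ x (hx : x ∈ (U : Set Pts)) (y : Pts),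
      y ∈ (N x : Set Pts) ↔ ∀ z ∈ W x hx, y.1 z = x.1 z := by
    intro x hx y
    simp only [N, dif_pos hx]
    rw [TopologicalSpace.Clopens.coe_compl, Set.mem_compl_iff, hmem]
    simp [site]
    rfl
  obtain ⟨S, hS⟩ := (U.isClopen.isClosed.isCompact).elim_finite_subcover
    (fun x : {x : Pts // x ∈ (U : Set Pts)} => (N x.1 : Set Pts))
    (fun x => (N x.1).isClopen.isOpen) (fun x hx => Set.mem_iUnion.2
      ⟨⟨x, hx⟩, (hNmem x hx x).2 fun _ _ => rfl⟩)
  have hU : U = S.sup fun x => N x.1 := by
    refine TopologicalSpace.Clopens.ext (Set.ext fun y => ?_)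
    have hsup : ∀ T : Finset {x : Pts // x ∈ (U : Set Pts)},
        y ∈ ((T.sup fun x => N x.1 : Clo Pts) : Set Pts) ↔ ∃ x ∈ T, y ∈ (N x.1 : Set Pts) := by
      intro T
      induction T using Finset.cons_induction with
      | empty => simp
      | cons i T hi ih => simp [ih]
    rw [hsup]
    constructor
    · intro hy
      simpa using hS hy
    · rintro ⟨x, -, hxy⟩
      exact hW x.1 x.2 y ((hNmem x.1 x.2 y).1 hxy)
  rw [hU]
  exact Evals.finset V _ _ fun x _ => hN x.1

end

end Vale.Agent.P196.Full.Lift
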