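import Vale.Agent.P196.Full.Lift.Pres.Centre
import Vale.Agent.P196.Full.Lift.ShiftPart
import Vale.Agent.P196.Full.Lift.Level

/-!
# P196: the model of the amplified lattice in the presented group

The group of enough short true relations, modulo its centre, with the partition by the tiles at
the origin, and the level `0` of the lift.
-/

namespace Vale.Agent.P196.Full.Lift

open Calculus Tiles
open scoped commutatorElement

variable {n : ℕ}

/-- The presented group modulo its centre. -/
abbrev Qgrp (n L : ℕ) : Type := Grp n L ⧸ Subgroup.center (Grp n L)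

/-- The class of a word modulo the centre. -/
noncomputable def qm (L : ℕ) : FreeGroup (Fin (kk n)) →* Qgrp n L :=
  (QuotientGroup.mk' (Subgroup.center (Grp n L))).comp (wmk L)

/-- Evaluation of the presented group. -/
noncomputable def evH (L : ℕ) : Grp n L →* Equiv.Perm (Pt Pts n) :=
  PresentedGroup.toGroup (f := fun i => (iota i).perm sys) fun w hw => by
    have : FreeGroup.lift (fun i => (iota i).perm sys) = evG (n := n) :=
      FreeGroup.ext_hom _ _ fun i => by simp [evG_of]
    rw [this]
    exact hw.2

theorem evH_wmk (L : ℕ) (w : FreeGroup (Fin (kk n))) : evH L (wmk L w) = evG w := by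
  have : (evH L).comp (wmk L) = evG (n := n) := FreeGroup.ext_hom _ _ fun i => by
    rw [evG_of]
    show evH L (PresentedGroup.of i) = _
    simp [evH]
  exact DFunLike.congr_fun this w

theorem evH_center [Nonempty Pts] (hn : 8 ≤ n) (L : ℕ) {z : Grp n L}
    (hz : z ∈ Subgroup.center (Grp n L)) : evH L z = 1 := by
  refine eq_one_of_commute hn _ ?_
  rintro _ ⟨w, rfl⟩
  rw [← evH_wmk L]
  exact Commute.map (show Commute z (wmk L w) from (Subgroup.mem_center_iff.1 hz (wmk L w)).symm)
    (evH L)

/-- Evaluation modulo the centre. -/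
noncomputable def evQ [Nonempty Pts] (hn : 8 ≤ n) (L : ℕ) : Qgrp n L →* Equiv.Perm (Pt Pts n) :=
  QuotientGroup.lift _ (evH L) fun _ hz => MonoidHom.mem_ker.2 (evH_center hn L hz)

theorem evQ_qm [Nonempty Pts] (hn : 8 ≤ n) (L : ℕ) (w : FreeGroup (Fin (kk n))) :
    evQ hn L (qm L w) = evG w := evH_wmk L w

/-- The generators modulo the centre. -/
def gset (n L : ℕ) : Set (Qgrp n L) := Set.range fun i : Fin (kk n) => qm L (FreeGroup.of i)

open Classical in
/-- The colours of a generator modulo the centre. -/
noncomputable def qcol (L : ℕ) (q : Qgrp n L) : List (Fin n) :=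
  if h : ∃ i : Fin (kk n), qm L (FreeGroup.of i) = q then (idx h.choose).colours else []

theorem mem_qcol [Nonempty Pts] (hn : 8 ≤ n) (L : ℕ) (i : Fin (kk n)) (e : Fin n) :
    e ∈ qcol L (qm L (FreeGroup.of i)) ↔ e ∈ (idx i).colours := by
  have h : ∃ j : Fin (kk n), qm L (FreeGroup.of j) = qm L (FreeGroup.of i) := ⟨i, rfl⟩
  rw [qcol, dif_pos h, colours_iff, colours_iff]
  have := congrArg (evQ hn L) h.choose_spec
  rw [evQ_qm, evQ_qm, evG_of, evG_of] at this
  rw [this]

theorem qcol_length (L : ℕ) (q : Qgrp n L) : (qcol L q).length ≤ 3 := by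
  unfold qcol
  split <;> simp [Idx.colours]

theorem closure_gset (L : ℕ) : Subgroup.closure (gset n L) = ⊤ := by
  have : gset n L = qm L '' Set.range (FreeGroup.of : Fin (kk n) → _) := (Set.range_comp _ _)
  rw [this, ← MonoidHom.map_closure, FreeGroup.closure_range_of,
    Subgroup.map_top_of_surjective]
  exact (QuotientGroup.mk'_surjective _).comp (PresentedGroup.mk_surjective _)

section

variable {hn : 8 ≤ n} {L : ℕ} (hL : Enough hn L)

include hL in
theorem perfect_grp : commutator (Grp n L) = ⊤ := by
  rw [eq_top_iff, ← PresentedGroup.closure_range_of (rels n L), Subgroup.closure_le]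
  rintro _ ⟨i, rfl⟩
  obtain ⟨w, w', h⟩ := hL.perfect i
  show PresentedGroup.of i ∈ commutator (Grp n L)
  rw [show (PresentedGroup.of i : Grp n L) = wmk L (FreeGroup.of i) from rfl, h, commutator_def]
  exact Subgroup.commutator_mem_commutator (Subgroup.mem_top _) (Subgroup.mem_top _)

include hL in
theorem qm_commute_wL (c : Fin n) (ax : Bool) (c' : Fin n) (ax' : Bool) :
    Commute (qm L (wL hn c ax)) (qm L (wL hn c' ax')) :=
  (hL.move_comm c ax c' ax').map (QuotientGroup.mk' _)

/-- The translations of colours modulo the centre. -/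
noncomputable def qlam (hn : 8 ≤ n) (L : ℕ) (f : Fin n → Lat) : Qgrp n L := qm L (wLam hn f)

include hL in
theorem qlam_add (f g : Fin n → Lat) : qlam hn L (f + g) = qlam hn L f * qlam hn L g := by
  have key : ∀ l : List (Fin n),
      qm L ((l.map fun c => wL hn c false ^ ((f + g) c).1 * wL hn c true ^ ((f + g) c).2).prod) =
        qm L ((l.map fun c => wL hn c false ^ (f c).1 * wL hn c true ^ (f c).2).prod) *
          qm L ((l.map fun c => wL hn c false ^ (g c).1 * wL hn c true ^ (g c).2).prod) := by
    intro l
    induction l with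
    | nil => simp
    | cons c l ih =>
      rw [List.map_cons, List.prod_cons, map_mul, ih]
      simp only [List.map_cons, List.prod_cons, map_mul, map_zpow, Pi.add_apply, Prod.fst_add,
        Prod.snd_add, zpow_add]
      have c1 := (qm_commute_wL hL c false c true).zpow_zpow (g c).1 (f c).2
      have hr : Commute (qm L (wL hn c false) ^ (g c).1 * qm L (wL hn c true) ^ (g c).2)
          (qm L ((l.map fun c => wL hn c false ^ (f c).1 * wL hn c true ^ (f c).2).prod)) := by
        rw [map_list_prod]
        refine Commute.list_prod_right _ _ fun x hx => ?_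
        simp only [List.map_map, List.mem_map, Function.comp_apply] at hx
        obtain ⟨d, -, rfl⟩ := hx
        rw [map_mul, map_zpow, map_zpow]
        exact ((qm_commute_wL hL c false d false).zpow_zpow _ _ |>.mul_right
          ((qm_commute_wL hL c false d true).zpow_zpow _ _)).mul_left
          ((qm_commute_wL hL c true d false).zpow_zpow _ _ |>.mul_right
          ((qm_commute_wL hL c true d true).zpow_zpow _ _))
      generalize qm L ((l.map fun c => wL hn c false ^ (f c).1 * wL hn c true ^ (f c).2).prod) = R
        at hr ⊢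
      generalize qm L ((l.map fun c => wL hn c false ^ (g c).1 * wL hn c true ^ (g c).2).prod) = R'
      generalize qm L (wL hn c false) = A, qm L (wL hn c true) = B at c1 hr ⊢
      calc A ^ (f c).1 * A ^ (g c).1 * (B ^ (f c).2 * B ^ (g c).2) * (R * R')
          = A ^ (f c).1 * (A ^ (g c).1 * B ^ (f c).2) * (B ^ (g c).2 * R) * R' := by group
        _ = A ^ (f c).1 * B ^ (f c).2 * (A ^ (g c).1 * B ^ (g c).2 * R) * R' := by
            rw [c1.eq]; group
        _ = _ := by rw [hr.eq]; group
  exact key _

include hL in
theorem qlam_pair (a b : Fin n) (ax : Bool) :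
    qlam hn L (pairVec a b (axisVec ax 1 0)) = qm L (wL hn a ax) * (qm L (wL hn b ax))⁻¹ := by
  have hs : ∀ c, qlam hn L (Pi.single c (axisVec ax 1 0)) = qm L (wL hn c ax) := by
    intro c
    have hl : ∀ l : List (Fin n), l.Nodup →
        qm L ((l.map fun d => wL hn d false ^ ((Pi.single c (axisVec ax 1 0) : Fin n → Lat) d).1 *
          wL hn d true ^ ((Pi.single c (axisVec ax 1 0) : Fin n → Lat) d).2).prod) =
        if c ∈ l then qm L (wL hn c ax) else 1 := by
      intro l hl
      induction l with
      | nil => simp
      | cons d l ih =>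
        rw [List.nodup_cons] at hl
        rw [List.map_cons, List.prod_cons, map_mul, ih hl.2]
        by_cases hd : d = c
        · subst hd
          rw [if_neg hl.1, if_pos (List.mem_cons_self ..), mul_one]
          cases ax <;> simp [axisVec]
        · simp [hd, Ne.symm hd]
    unfold qlam wLam
    rw [hl _ (List.nodup_finRange n), if_pos (List.mem_finRange c)]
  rw [← hs a, ← hs b, eq_mul_inv_iff_mul_eq, ← qlam_add hL, pairVec, sub_add_cancel]

include hL in
theorem qlam_conj (π : Alt n) (f : Fin n → Lat) (hf : ∑ c, f c = 0) :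
    qm L (wP fun _ => π) * qlam hn L f * (qm L (wP fun _ => π))⁻¹ =
      qlam hn L (f ∘ ((π : Equiv.Perm (Fin n))⁻¹ : Equiv.Perm (Fin n))) := by
  refine eq_of_pairs hn (fun f => qm L (wP fun _ => π) * qlam hn L f * (qm L (wP fun _ => π))⁻¹)
    (fun f => qlam hn L (f ∘ ((π : Equiv.Perm (Fin n))⁻¹ : Equiv.Perm (Fin n))))
    (fun f g _ _ => ?_) (fun f g _ _ => ?_) (fun c ax => ?_) f hf
  · simp only [qlam_add hL]
    group
  · rw [← qlam_add hL]
    rfl
  · simp only [qlam_pair hL]
    have e : pairVec c (col0 hn) (axisVec ax 1 0) ∘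
        (((π : Equiv.Perm (Fin n))⁻¹ : Equiv.Perm (Fin n)) : Fin n → Fin n) =
        pairVec ((π : Equiv.Perm (Fin n)) c) ((π : Equiv.Perm (Fin n)) (col0 hn))
          (axisVec ax 1 0) := by
      funext e
      simp only [pairVec, Function.comp_apply, Pi.sub_apply, Pi.single_apply,
        Equiv.Perm.inv_eq_iff_eq]
    rw [e, qlam_pair hL]
    have hb : qm L (wL hn (col0 hn) ax) = 1 := by
      show QuotientGroup.mk' _ (wmk L (wL hn (col0 hn) ax)) = 1
      rw [hL.move_base, map_one]
    rw [hb, inv_one, mul_one]
    have := congrArg (QuotientGroup.mk' (Subgroup.center (Grp n L))) (hL.move_conj π c ax)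
    simp only [map_mul, map_inv] at this
    exact this

/-- The partition by the tiles at the origin, as a homomorphism. -/
noncomputable def qP : (LTile 0 → Alt n) →* Qgrp n L :=
  MonoidHom.mk' (fun y => qm L (wP y)) fun y z =>
    (congrArg (QuotientGroup.mk' (Subgroup.center (Grp n L))) (hL.fam_mul y z)).trans
      (map_mul (QuotientGroup.mk' (Subgroup.center (Grp n L))) _ _)

theorem indFam_cyc_mem [Nonempty Pts] (hL : Enough hn L) (s : Set Base) (a b c : Fin n)
    (h : Dist a b c) (D : Finset (Fin n)) (ha : a ∈ D) (hb : b ∈ D) (hc : c ∈ D) :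
    qm L (wP (indFam s (cyc a b c h))) ∈ colSub (gset n L) (qcol L) D := by
  rcases hL.small s a b c h with e | ⟨i, hi, e⟩
  · show QuotientGroup.mk' _ (wmk L _) ∈ _
    rw [e, map_one]
    exact Subgroup.one_mem _
  · show QuotientGroup.mk' _ (wmk L _) ∈ _
    rw [e]
    refine Subgroup.subset_closure ⟨⟨i, rfl⟩, fun x hx => ?_⟩
    have := (mem_qcol hn L i x).1 hx
    rw [hi] at this
    simp only [List.mem_cons, List.not_mem_nil, or_false] at this
    rcases this with rfl | rfl | rfl <;> assumption

/-- The amplified lattice of the presented group modulo its centre. -/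
noncomputable def amp [Nonempty Pts] : Amp (Qgrp n L) n where
  G := gset n L
  col := qcol L
  closed := ⟨hn, center_quotient_center (perfect_grp hL), closure_gset L,
    fun g _ => qcol_length L g⟩
  gen_comm := by
    rintro _ ⟨i, rfl⟩ _ ⟨j, rfl⟩ h
    refine (hL.gen_comm i j fun e he he' => ?_).map (QuotientGroup.mk' _)
    exact h e ((mem_qcol hn L i e).2 he) ((mem_qcol hn L j e).2 he')
  u := (qP hL).comp (Pi.constMonoidHom (LTile 0) (Alt n))
  u_mem a b c h D ha hb hc _ := by
    have : (fun _ : LTile 0 => cyc a b c h) = indFam Set.univ (cyc a b c h) := by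
      funext t
      show cyc a b c h = indFam Set.univ (cyc a b c h) t
      exact (if_pos (show (t : Base) ∈ (Set.univ : Set Base) from trivial)).symm
    show qm L (wP fun _ : LTile 0 => cyc a b c h) ∈ _
    rw [this]
    exact indFam_cyc_mem hL _ a b c h D ha hb hc
  lam := qlam hn L
  lam_add f g _ _ := qlam_add hL f g
  lam_mem a b v D hab ha hb hD := by
    classical
    obtain ⟨c, hc⟩ : ((D.erase a).erase b).Nonempty := by
      rw [← Finset.card_pos]
      have := Finset.pred_card_le_card_erase (s := D) (a := a)
      have := Finset.pred_card_le_card_erase (s := D.erase a) (a := b)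
      omega
    obtain ⟨d, hd⟩ : (((D.erase a).erase b).erase c).Nonempty := by
      rw [← Finset.card_pos]
      have := Finset.pred_card_le_card_erase (s := D) (a := a)
      have := Finset.pred_card_le_card_erase (s := D.erase a) (a := b)
      have := Finset.pred_card_le_card_erase (s := (D.erase a).erase b) (a := c)
      omega
    simp only [Finset.mem_erase] at hc hd
    have hsum : ∀ v, qlam hn L (pairVec a b v) ∈ colSub (gset n L) (qcol L) D := by
      intro v
      let V : AddSubgroup Lat :=
        { carrier := {v | qlam hn L (pairVec a b v) ∈ colSub (gset n L) (qcol L) D}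
          zero_mem' := by
            rw [Set.mem_ofPred_eq]
            have h0 : qlam hn L (pairVec a b 0) = 1 := by
              have := qlam_add hL (pairVec a b 0) (pairVec a b 0)
              simpa [pairVec] using this
            rw [h0]
            exact Subgroup.one_mem _
          add_mem' := fun {v w} hv hw => by
            rw [Set.mem_ofPred_eq] at hv hw ⊢
            rw [show pairVec a b (v + w) = pairVec a b v + pairVec a b w by
              simp [pairVec, Pi.single_add]; abel, qlam_add hL]
            exact Subgroup.mul_mem _ hv hw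
          neg_mem' := fun {v} hv => by
            rw [Set.mem_ofPred_eq] at hv ⊢
            have h2 := qlam_add hL (pairVec a b (-v)) (pairVec a b v)
            have h0 : qlam hn L 0 = 1 := by simpa using qlam_add hL 0 0
            rw [show pairVec a b (-v) + pairVec a b v = 0 by simp [pairVec, Pi.single_neg], h0] at h2
            rw [eq_inv_of_mul_eq_one_left h2.symm]
            exact Subgroup.inv_mem _ hv }
      have hu : ∀ ax, axisVec ax 1 0 ∈ V := by
        intro ax
        obtain ⟨w, hw, e⟩ := hL.move_mem a b c d ax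
          ⟨hab, Ne.symm hc.1, Ne.symm hc.2.1⟩ ⟨Ne.symm hc.1, Ne.symm hd.1, Ne.symm hd.2.1⟩
          (Ne.symm hd.2.2.1)
        suffices hgoal : qlam hn L (pairVec a b (axisVec ax 1 0)) ∈ colSub (gset n L) (qcol L) D
          from hgoal
        rw [qlam_pair hL]
        have e' := congrArg (QuotientGroup.mk' (Subgroup.center (Grp n L))) e
        simp only [map_mul, map_inv] at e'
        show QuotientGroup.mk' _ (wmk L _) * (QuotientGroup.mk' _ (wmk L _))⁻¹ ∈ _
        rw [← e']
        have hle : (colWords ({a, b, c, d} : Finset (Fin n))).map (qm L) ≤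
            colSub (gset n L) (qcol L) D := by
          rw [colWords, MonoidHom.map_closure, Subgroup.closure_le]
          rintro _ ⟨_, ⟨i, rfl, hi⟩, rfl⟩
          refine Subgroup.subset_closure ⟨⟨i, rfl⟩, fun x hx => ?_⟩
          have := hi x ((mem_qcol hn L i x).1 hx)
          simp only [Finset.mem_insert, Finset.mem_singleton] at this
          rcases this with rfl | rfl | rfl | rfl
          exacts [ha, hb, hc.2.2, hd.2.2.2]
        exact hle ⟨w, hw, rfl⟩
      have e : v = v.1 • axisVec false 1 0 + v.2 • axisVec true 1 0 := by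
        ext <;> simp [axisVec]
      rw [e]
      exact V.add_mem (V.zsmul_mem (hu false) _) (V.zsmul_mem (hu true) _)
    exact hsum v
  lam_conj π f hf := qlam_conj hL π f hf

/-- The partition by the tiles at the origin. -/
noncomputable def basePart [Nonempty Pts] : Part (amp hL).u (LTile 0) where
  hom := qP hL
  hom_const _ := rfl

theorem block_basePart [Nonempty Pts] (p : LTile 0 → Prop) (x : Alt n) :
    block (basePart hL) p x = qm L (wP (indFam {t : Base | p t} x)) := by
  classical
  show qP hL _ = qm L _
  refine congrArg (qP hL) (funext fun t => ?_)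
  show Pi.mulSingle (M := fun _ : Bool => Alt n) true x (decide (p t)) = indFam {t : Base | p t} x t
  by_cases h : p t
  · simp only [h, decide_true, Pi.mulSingle_eq_same]
    exact (if_pos (show (t : Base) ∈ {t : Base | p t} from h)).symm
  · simp only [h, decide_false]
    rw [Pi.mulSingle_eq_of_ne Bool.false_ne_true]
    exact (if_neg (show ¬(t : Base) ∈ {t : Base | p t} from h)).symm

theorem goodPart_basePart [Nonempty Pts] : GoodPart (amp hL) (basePart hL) := by
  intro p
  refine ⟨fun x y => ?_, fun a b c h D ha hb hc _ => ?_⟩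
  · show ⁅(qP hL) _, (qP hL) _⁆ = (qP hL) _
    rw [← map_commutatorElement]
    refine congrArg (qP hL) (funext fun t => ?_)
    classical
    show ⁅Pi.mulSingle (M := fun _ : Bool => Alt n) true x (decide (p t)), y⁆ =
      Pi.mulSingle (M := fun _ : Bool => Alt n) true ⁅x, y⁆ (decide (p t))
    by_cases h : p t <;> simp [h]
  · rw [block_basePart]
    exact indFam_cyc_mem hL _ a b c h D ha hb hc

theorem shift_unit_vec [Nonempty Pts] (ax : Bool) (p q : LTile 0 → Prop)
    (h : ∀ x : Pts, q ⟨(x.1 0).1, (x.1 0).2⟩ ↔
      p ⟨((sys.sh (-axisVec ax 1 0) x).1 0).1, ((sys.sh (-axisVec ax 1 0) x).1 0).2⟩) :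
    (amp hL).Shift (axisVec ax 1 0) (block (basePart hL) p) (block (basePart hL) q) := by
  intro a b c hd g hg ha hb hc
  obtain ⟨d, hfresh⟩ := exists_fresh [a, b, c] (by simp; omega)
  obtain ⟨fa, fb, fc⟩ := triVec_fst hd hfresh (axisVec ax 1 0) (axisVec ax 1 0) (axisVec ax 1 0)
  have hgood := goodPart_basePart hL p
  rw [hgood.lam_conj_eq hd hg (g' := triVec a b c d (axisVec ax 1 0) (axisVec ax 1 0)
      (axisVec ax 1 0)) (by simp [triVec, Finset.sum_add_distrib, sum_pairVec])
      (by rw [fa, ha]) (by rw [fb, hb]) (by rw [fc, hc]), block_basePart, block_basePart]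
  have := congrArg (QuotientGroup.mk' (Subgroup.center (Grp n L)))
    (hL.shift {t : Base | p t} {t : Base | q t} ax (Set.ext fun x => h x) a b c d hd hfresh)
  simp only [map_mul, map_inv] at this
  exact this

/-- The level `0` of the lift. -/
theorem nonempty_level_zero [Nonempty Pts] : Nonempty (Level (amp hL) (basePart hL) 0) := by
  classical
  have : Inhabited (Fin (width 0) × Fin (width 0)) := ⟨(⟨0, width_pos 0⟩, ⟨0, width_pos 0⟩)⟩
  have hatom : ∀ c, (Part.unit (amp hL).u : Part (amp hL).u (Fin (width 0) × Fin (width 0))).atom c =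
      (amp hL).u := fun c => by
    have hc : (default : Fin (width 0) × Fin (width 0)) = c := by
      obtain ⟨a, b⟩ := c
      have hw : width 0 = 1 := rfl
      exact Prod.ext (Fin.ext (by
          have := a.isLt; have := (default : Fin (width 0) × Fin (width 0)).1.isLt; omega))
        (Fin.ext (by
          have := b.isLt; have := (default : Fin (width 0) × Fin (width 0)).2.isLt; omega))
    refine MonoidHom.ext fun x => ?_
    show (amp hL).u (Pi.mulSingle (M := fun _ => Alt n) c x default) = _
    rw [hc, Pi.mulSingle_eq_same]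
  have hzero : ∀ c : Fin (width 0) × Fin (width 0),
      ((((c.1 : ℕ) : ℤ), ((c.2 : ℕ) : ℤ)) : Lat) = 0 := fun c => by
    obtain ⟨⟨a, ha⟩, ⟨b, hb⟩⟩ := c
    simp only [width] at ha hb
    obtain rfl : a = 0 := by omega
    obtain rfl : b = 0 := by omega
    rfl
  refine ⟨{
    unit := (amp hL).u
    cells := Part.unit (amp hL).u
    cells_good := goodPart_of_atoms fun c => by rw [hatom c]; exact Amp.Good.u _
    cells_shift := fun c => by rw [hatom c, hzero c]; exact Amp.Shift.unit _ _
    tiles := basePart hL
    tiles_good := goodPart_basePart hL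
    match_h := fun γ => ?_
    match_v := fun γ => ?_
    site := fun c T t f hf => ?_ }⟩
  · refine shift_unit_vec hL false _ _ fun x => ?_
    have := x.2.1 (-axisVec false 1 0)
    show (x.1 0).1.l = γ ↔ _
    rw [show ((-axisVec false 1 0 : Lat) + (1, 0)) = 0 by simp [axisVec]] at this
    simp only [] at this
    rw [← this]
    simp [sys, shiftFun]
  · refine shift_unit_vec hL true _ _ fun x => ?_
    have := x.2.2 (-axisVec true 1 0)
    show (x.1 0).1.d = γ ↔ _
    rw [show ((-axisVec true 1 0 : Lat) + (0, 1)) = 0 by simp [axisVec]] at this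
    simp only [] at this
    rw [← this]
    simp [sys, shiftFun]
  · rw [hzero c] at hf
    have hgood : (amp hL).Good ((basePart hL).atom T) :=
      GoodPart.atom (goodPart_basePart hL) T
    obtain rfl : f = (basePart hL).atom T := Amp.Shift.unique hf (Amp.Shift.of_good_zero hgood)
    show Meet _ _ (if desc 0 0 T.1 c.1 c.2 = t.1 then _ else 1)
    by_cases h : T = t
    · subst h
      rw [show desc 0 0 T.1 c.1 c.2 = T.1 from rfl, if_pos rfl]
      exact Meet.self _
    · rw [if_neg (show ¬desc 0 0 T.1 c.1 c.2 = t.1 from fun e => h (Subtype.ext e))]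
      exact Meet.of_comm ((basePart hL).comm_atom h)

end

end Vale.Agent.P196.Full.Lift
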