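import Vale.Agent.P196.Full.Gen
import Vale.Agent.P196.Full.Calculus.Colour

/-!
# P196: permutations of amplified points by colours

`mv f` translates each colour, `fam y` applies to every point the permutation of the colours given
by `y`, and a generator is the conjugate of a three-cycle of colours on a clopen set by a
translation of colours.
-/

namespace Vale.Agent.P196.Full.Lift

open Calculus

variable {X : Type} [TopologicalSpace X] {n : ℕ} (S : Sys X)

/-- Translation of every colour by its own vector. -/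
def mv (f : Fin n → Lat) : Equiv.Perm (Pt X n) where
  toFun z := (S.sh (f z.2) z.1, z.2)
  invFun z := (S.sh (-f z.2) z.1, z.2)
  left_inv z := by simp [S.sh_sh, S.sh_zero]
  right_inv z := by simp [S.sh_sh, S.sh_zero]

@[simp] theorem mv_apply (f : Fin n → Lat) (z : Pt X n) :
    mv S f z = (S.sh (f z.2) z.1, z.2) := rfl

theorem mv_add (f g : Fin n → Lat) : mv S (f + g) = mv S f * mv S g := by
  ext1 z
  simp [S.sh_sh]

@[simp] theorem mv_zero : mv S (0 : Fin n → Lat) = 1 := by
  ext1 z
  simp [S.sh_zero]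

theorem mv_neg (f : Fin n → Lat) : mv S (-f) = (mv S f)⁻¹ :=
  eq_inv_of_mul_eq_one_left (by rw [← mv_add, neg_add_cancel, mv_zero])

theorem commute_mv (f g : Fin n → Lat) : Commute (mv S f) (mv S g) := by
  show mv S f * mv S g = mv S g * mv S f
  rw [← mv_add, ← mv_add, add_comm]

variable (n) in
/-- Permutations of the colours depending on the point. -/
def fam : (X → Alt n) →* Equiv.Perm (Pt X n) where
  toFun y := Equiv.prodShear (Equiv.refl X) fun x => (y x : Equiv.Perm (Fin n))
  map_one' := by ext1 z; simp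
  map_mul' y y' := by ext1 z; simp

omit [TopologicalSpace X] in
@[simp] theorem fam_apply (y : X → Alt n) (z : Pt X n) :
    fam n y z = (z.1, (y z.1 : Equiv.Perm (Fin n)) z.2) := rfl

open Classical in
/-- The permutation `a` of the colours placed on `U`. -/
noncomputable def placePerm (U : Set X) : Alt n →* Equiv.Perm (Pt X n) :=
  (fam n).comp
    (MonoidHom.mk' (fun a x => if x ∈ U then a else 1) fun a b => by
      funext x
      by_cases h : x ∈ U <;> simp [h])

open Classical in
theorem place_apply (U : Set X) (a : Alt n) (z : Pt X n) :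
    placePerm U a z = (z.1, if z.1 ∈ U then (a : Equiv.Perm (Fin n)) z.2 else z.2) := by
  show fam n _ z = _
  rw [fam_apply]
  by_cases h : z.1 ∈ U <;> simp [h]

/-- Conjugating by colours relabels the translations. -/
theorem conj_mv (π : Alt n) (f : Fin n → Lat) :
    fam n (fun _ : X => π) * mv S f * (fam n (fun _ : X => π))⁻¹ =
      mv S (f ∘ ((π : Equiv.Perm (Fin n))⁻¹ : Equiv.Perm (Fin n))) := by
  rw [mul_inv_eq_iff_eq_mul]
  ext1 z
  simp

/-- A generator is a three-cycle of colours on its set, moved by translations of the colours. -/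
theorem perm_eq_conj (g : Gen X n) (f : Fin n → Lat) (hp : f g.p.2 = g.p.1) (hq : f g.q.2 = g.q.1)
    (hr : f g.r.2 = g.r.1) :
    g.perm S = mv S f * placePerm (g.U : Set X) (cyc g.p.2 g.q.2 g.r.2 g.tri) * (mv S f)⁻¹ := by
  obtain ⟨U, p, q, r, h⟩ := g
  simp only at hp hq hr ⊢
  rw [eq_mul_inv_iff_mul_eq]
  ext1 ⟨x, c⟩
  have e : ∀ a b : Lat, -a + a = 0 ∧ b - a + a = b := fun a b => ⟨neg_add_cancel a, sub_add_cancel b a⟩
  have c1 := cyc_apply_fst p.2 q.2 r.2 h
  have c2 := cyc_apply_snd p.2 q.2 r.2 h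
  have c3 := cyc_apply_thd p.2 q.2 r.2 h
  have c4 : c ≠ p.2 → c ≠ q.2 → c ≠ r.2 →
      ((cyc p.2 q.2 r.2 h : Alt n) : Equiv.Perm (Fin n)) c = c :=
    cyc_apply_of_ne p.2 q.2 r.2 h
  obtain ⟨h1, h2, h3⟩ := h
  simp only [Equiv.Perm.mul_apply, place_apply, mv_apply]
  show S.cycFun U p q r (S.sh (f c) x, c) = _
  unfold Sys.cycFun
  by_cases hcp : c = p.2
  · subst hcp
    by_cases hx : x ∈ (U : Set X) <;>
      simp [hx, hp, hq, S.sh_sh, S.sh_zero, h1, h3, h3.symm, c1]
  by_cases hcq : c = q.2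
  · subst hcq
    by_cases hx : x ∈ (U : Set X) <;>
      simp [hx, hcp, hq, hr, S.sh_sh, S.sh_zero, h2, c2]
  by_cases hcr : c = r.2
  · subst hcr
    by_cases hx : x ∈ (U : Set X) <;>
      simp [hx, hcp, hcq, hr, hp, S.sh_sh, S.sh_zero, c3]
  · simp [hcp, hcq, hcr, c4 hcp hcq hcr]

theorem swapPair_eq {a b c d : Fin n} (h : Dist a b c) (h' : Dist b c d) :
    ((cyc a b c h * cyc b c d h' : Alt n) : Equiv.Perm (Fin n)) = Equiv.swap a b * Equiv.swap c d := by
  rw [Subgroup.coe_mul, cyc_coe, cyc_coe]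
  simp only [mul_assoc]
  rw [← mul_assoc (Equiv.swap b c), Equiv.swap_mul_self, one_mul]

/-- The translation of `a` by `v` and of `b` by `-v`, as a product of two double transpositions. -/
theorem mv_pair {a b c d : Fin n} (h : Dist a b c) (h' : Dist b c d) (had : a ≠ d) (v : Lat) :
    fam n (fun _ : X => cyc a b c h * cyc b c d h') *
        (mv S (Pi.single b v) * fam n (fun _ : X => cyc a b c h * cyc b c d h') *
          (mv S (Pi.single b v))⁻¹) =
      mv S (Pi.single a v - Pi.single b v) := by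
  obtain ⟨h1, h2, h3⟩ := h
  obtain ⟨-, h5, h6⟩ := h'
  have hsw := swapPair_eq ⟨h1, h2, h3⟩ ⟨h2, h5, h6⟩
  rw [← mv_neg, ← mul_assoc, ← mul_assoc]
  ext1 ⟨x, e⟩
  simp only [Equiv.Perm.mul_apply, fam_apply, mv_apply, hsw]
  by_cases hea : e = a
  · subst hea
    simp [h1, h1.symm, h3, had, h2, h2.symm, h6, h6.symm, S.sh_sh, Equiv.swap_apply_of_ne_of_ne]
  by_cases heb : e = b
  · subst heb
    simp [h1, h1.symm, h3, had, h2, h2.symm, h6, h6.symm, S.sh_sh, S.sh_zero,
      Equiv.swap_apply_of_ne_of_ne]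
  by_cases hec : e = c
  · subst hec
    simp [hea, heb, h1, h2, h2.symm, h3, h3.symm, had, had.symm, h5, h5.symm, h6, h6.symm,
      S.sh_zero, Equiv.swap_apply_of_ne_of_ne]
  by_cases hed : e = d
  · subst hed
    simp [hea, heb, hec, h1, h2, h2.symm, h3, h3.symm, had, had.symm, h5, h5.symm, h6, h6.symm,
      S.sh_zero, Equiv.swap_apply_of_ne_of_ne]
  · simp [hea, heb, hec, hed, S.sh_zero, Equiv.swap_apply_of_ne_of_ne]

/-- A point-dependent family of colour permutations only depends on the blocks through which it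
factors. -/
theorem fam_eq_place_prod {I : Type} [Finite I] (ρ : X → I) (K : Subgroup (Equiv.Perm (Pt X n)))
    (hK : ∀ i a b c (h : Dist a b c), placePerm {x | ρ x = i} (cyc a b c h) ∈ K) (y : I → Alt n) :
    fam n (y ∘ ρ) ∈ K := by
  classical
  let F : (I → Alt n) →* Equiv.Perm (Pt X n) :=
    (fam n).comp (MonoidHom.mk' (fun y => y ∘ ρ) fun _ _ => rfl)
  show y ∈ K.comap F
  refine Subgroup.pi_mem_of_mulSingle_mem y fun i => ?_
  have : (K.comap F).comap (MonoidHom.mulSingle (fun _ : I => Alt n) i) = ⊤ := by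
    refine eq_top_of_cyc _ fun a b c h => ?_
    show F (Pi.mulSingle i (cyc a b c h)) ∈ K
    convert hK i a b c h using 1
    ext1 z
    show fam n (Pi.mulSingle i (cyc a b c h) ∘ ρ) z = _
    rw [fam_apply, place_apply]
    by_cases hz : ρ z.1 = i <;> simp [hz]
  exact (Subgroup.eq_top_iff' _).1 this (y i)

end Vale.Agent.P196.Full.Lift
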