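import Vale.Agent.P196.Full.Lift.Pres.Perms
import Vale.Agent.P196.Full.Tiles.Tower

/-!
# P196: the finitely many generators and the groups of short true relations

The generators are the three-cycles on the non-empty sets of tiles at the origin with offsets at
most one step away. `Grp L` is presented by all true relations of length at most `L`, so every
given true identity holds in `Grp L` once `L` is large.
-/

namespace Vale.Agent.P196.Full.Lift

open Calculus Tiles

variable {n : ℕ}

/-- The points showing a tile of `s` at the origin. -/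
def cyl (s : Set Base) : Clo Pts :=
  ⟨{x | x.1 0 ∈ s}, (isClopen_discrete s).preimage
    ((continuous_apply (0 : ℤ × ℤ)).comp continuous_subtype_val)⟩

theorem mem_cyl {s : Set Base} {x : Pts} : x ∈ (cyl s : Set Pts) ↔ x.1 0 ∈ s := Iff.rfl

/-- The offsets of the generators. -/
abbrev Small : Type := {v : Lat // v ∈ ({(0, 0), (1, 0), (-1, 0), (0, 1), (0, -1)} : Finset Lat)}

/-- No offset. -/
def s0 : Small := ⟨(0, 0), by simp⟩

/-- A unit offset. -/
def sE (ax : Bool) : Small := ⟨axisVec ax 1 0, by cases ax <;> simp [axisVec]⟩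

/-- The index of a generator. -/
abbrev Idx (n : ℕ) : Type :=
  {p : Set Base × (Small × Fin n) × (Small × Fin n) × (Small × Fin n) //
    (cyl p.1 : Set Pts).Nonempty ∧ Dist p.2.1.2 p.2.2.1.2 p.2.2.2.2}

/-- The generator with an index. -/
def Idx.gen (p : Idx n) : Gen Pts n :=
  ⟨cyl p.1.1, (p.1.2.1.1.1, p.1.2.1.2), (p.1.2.2.1.1.1, p.1.2.2.1.2),
    (p.1.2.2.2.1.1, p.1.2.2.2.2), p.2.2⟩

/-- The colours of a generator. -/
def Idx.colours (p : Idx n) : List (Fin n) := [p.1.2.1.2, p.1.2.2.1.2, p.1.2.2.2.2]

variable (n) in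
/-- The number of generators. -/
noncomputable def kk : ℕ := Nat.card (Idx n)

/-- The enumeration of the generators. -/
noncomputable def idx (i : Fin (kk n)) : Idx n := (Finite.equivFin (Idx n)).symm i

/-- The number of a generator. -/
noncomputable def ix (p : Idx n) : Fin (kk n) := Finite.equivFin (Idx n) p

@[simp] theorem idx_ix (p : Idx n) : idx (ix p) = p :=
  (Finite.equivFin (Idx n)).symm_apply_apply p

/-- The generators. -/
noncomputable def iota (i : Fin (kk n)) : Gen Pts n := (idx i).gen

/-- Evaluation of words. -/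
noncomputable def evG : FreeGroup (Fin (kk n)) →* Equiv.Perm (Pt Pts n) :=
  (evalWord sys).comp (FreeGroup.map iota)

theorem evG_of (i : Fin (kk n)) : evG (FreeGroup.of i) = (iota i).perm sys := by
  simp [evG, evalWord]

/-- The true relations of length at most `L`. -/
def rels (n L : ℕ) : Set (FreeGroup (Fin (kk n))) :=
  {w | w.toWord.length ≤ L ∧ evG w = 1}

theorem rels_finite (L : ℕ) : (rels n L).Finite :=
  ((List.finite_length_le (Fin (kk n) × Bool) L).preimage
    FreeGroup.toWord_injective.injOn).subset fun _ hw => hw.1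

/-- The group of the short true relations. -/
abbrev Grp (n L : ℕ) : Type := PresentedGroup (rels n L)

/-- The class of a word. -/
noncomputable def wmk (L : ℕ) : FreeGroup (Fin (kk n)) →* Grp n L := PresentedGroup.mk _

theorem eventually_one {w : FreeGroup (Fin (kk n))} (h : evG w = 1) :
    ∀ᶠ L in Filter.atTop, wmk L w = 1 :=
  Filter.eventually_atTop.2 ⟨w.toWord.length, fun _ hL =>
    PresentedGroup.one_of_mem ⟨hL, h⟩⟩

theorem eventually_eq {w w' : FreeGroup (Fin (kk n))} (h : evG w = evG w') :
    ∀ᶠ L in Filter.atTop, wmk L w = wmk L w' := by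
  filter_upwards [eventually_one (w := w * w'⁻¹) (by rw [map_mul, map_inv, h, mul_inv_cancel])]
    with L hL
  rwa [map_mul, map_inv, mul_inv_eq_one] at hL

theorem eventually_commute {w w' : FreeGroup (Fin (kk n))} (h : Commute (evG w) (evG w')) :
    ∀ᶠ L in Filter.atTop, Commute (wmk L w) (wmk L w') := by
  filter_upwards [eventually_eq (w := w * w') (w' := w' * w) (by simpa [map_mul] using h.eq)]
    with L hL
  simpa [Commute, SemiconjBy, map_mul] using hL

/-- The permutations reached by the generators. -/
noncomputable def reach (n : ℕ) : Subgroup (Equiv.Perm (Pt Pts n)) := (evG (n := n)).range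

/-- The generator at three colours on a set of tiles, as a permutation. -/
theorem place_mem_reach (s : Set Base) (a b c : Fin n) (h : Dist a b c) :
    placePerm (cyl s : Set Pts) (cyc a b c h) ∈ reach n := by
  by_cases hs : (cyl s : Set Pts).Nonempty
  · let p : Idx n := ⟨(s, (s0, a), (s0, b), (s0, c)), hs, h⟩
    refine ⟨FreeGroup.of (ix p), ?_⟩
    rw [evG_of, iota, idx_ix,
      perm_eq_conj sys p.gen 0 rfl rfl rfl, mv_zero, one_mul, inv_one, mul_one]
    rfl
  · rw [Set.not_nonempty_iff_eq_empty] at hs
    refine (Subgroup.one_mem _ : (1 : Equiv.Perm (Pt Pts n)) ∈ reach n) |> fun h1 => ?_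
    convert h1 using 1
    ext1 z
    rw [place_apply, hs]
    simp

theorem fam_mem_reach (y : Base → Alt n) : fam n (y ∘ fun x : Pts => x.1 0) ∈ reach n :=
  fam_eq_place_prod (fun x : Pts => x.1 0) (reach n)
    (fun i a b c h => by exact place_mem_reach ({i} : Set Base) a b c h) y

/-- A word for a family of colour permutations on the tiles at the origin. -/
noncomputable def wP (y : Base → Alt n) : FreeGroup (Fin (kk n)) := (fam_mem_reach y).choose

theorem evG_wP (y : Base → Alt n) : evG (wP y) = fam n (y ∘ fun x : Pts => x.1 0) :=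
  (fam_mem_reach y).choose_spec

/-- A word for the double transposition of colours shifted at the second colour. -/
theorem exists_wT [Nonempty Pts] {a b c d : Fin n} (h : Dist a b c) (h' : Dist b c d) (v : Small) :
    mv sys (Pi.single b v.1) * fam n (fun _ : Pts => cyc a b c h * cyc b c d h') *
      (mv sys (Pi.single b v.1))⁻¹ ∈
    Subgroup.closure {g | ∃ i : Fin (kk n), (iota i).perm sys = g ∧
      ∀ e ∈ (idx i).colours, e = a ∨ e = b ∨ e = c ∨ e = d} := by
  obtain ⟨x⟩ := ‹Nonempty Pts›
  have hne : (cyl Set.univ : Set Pts).Nonempty := ⟨x, trivial⟩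
  have hu : ∀ σ : Alt n, fam n (fun _ : Pts => σ) = placePerm (cyl Set.univ : Set Pts) σ := fun σ => by
    ext1 z
    rw [fam_apply, place_apply, if_pos (show z.1 ∈ (cyl Set.univ : Set Pts) from trivial)]
  rw [hu, map_mul, ← MulAut.conj_apply, map_mul, MulAut.conj_apply, MulAut.conj_apply]
  refine Subgroup.mul_mem _ (Subgroup.subset_closure ?_) (Subgroup.subset_closure ?_)
  · let p : Idx n := ⟨(Set.univ, (s0, a), (v, b), (s0, c)), hne, h⟩
    refine ⟨ix p, ?_, fun e he => ?_⟩
    · rw [iota, idx_ix,
        perm_eq_conj sys p.gen (Pi.single b v.1) (by simp [p, Idx.gen, s0, h.1]; rfl)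
          (by simp [p, Idx.gen]) (by simp [p, Idx.gen, s0, h.2.1.symm]; rfl)]
      rfl
    · rw [idx_ix] at he
      simp [p, Idx.colours] at he
      tauto
  · let p : Idx n := ⟨(Set.univ, (v, b), (s0, c), (s0, d)), hne, h'⟩
    refine ⟨ix p, ?_, fun e he => ?_⟩
    · rw [iota, idx_ix,
        perm_eq_conj sys p.gen (Pi.single b v.1) (by simp [p, Idx.gen])
          (by simp [p, Idx.gen, s0, h'.1.symm]; rfl) (by simp [p, Idx.gen, s0, h'.2.2.symm]; rfl)]
      rfl
    · rw [idx_ix] at he
      simp [p, Idx.colours] at he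
      tauto

end Vale.Agent.P196.Full.Lift
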